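import Mathlib.RingTheory.IntegralClosure.IntegralRestrict
import Mathlib.RingTheory.IntegralClosure.GoingDown
import Mathlib.RingTheory.Ideal.KrullsHeightTheorem
import Mathlib.RingTheory.DedekindDomain.IntegralClosure
import Mathlib.Analysis.Complex.Polynomial.Basic
import Mathlib.FieldTheory.SplittingField.Construction

/-!
# P283R: cyclic covers which are étale in codimension one
-/

set_option linter.all false

open Set Polynomial

noncomputable section

namespace Vale.Agent.P283R.Ix

variable {K : Type} [Field K] [Algebra ℂ K]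

theorem root_const {L : Type} [Field L] [Algebra ℂ L] {z : L} {r : ℕ} (r0 : 0 < r)
    (h : z ^ r = 1) : ∃ c : ℂ, algebraMap ℂ L c = z := by
  have : IsIntegral ℂ z := IsIntegral.of_pow r0 (h ▸ isIntegral_one)
  exact minpoly.mem_range_of_degree_eq_one ℂ z
    (IsAlgClosed.degree_eq_one_of_irreducible ℂ (minpoly.irreducible this))

/-- the conclusion -/
def Cov (A : Subalgebra ℂ K) (a : K) (r : ℕ) : Prop :=
  ∃ (S : Type) (_ : CommRing S) (_ : Algebra ℂ S) (G : Subgroup (S ≃ₐ[ℂ] S))
    (i : K →ₐ[ℂ] FractionRing S) (s : FractionRing S), IsDomain S ∧ Algebra.FiniteType ℂ S ∧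
    IsIntegrallyClosed S ∧ Finite G ∧
    (∀ g ∈ G, g ≠ 1 → ∀ p : Ideal S, p.IsPrime → (∀ s, g s - s ∈ p) → 2 ≤ p.height) ∧
    (∀ b, (∃ a ∈ A, i a = b) ↔ ∃ s, (∀ g ∈ G, g s = s) ∧ algebraMap S _ s = b) ∧ i a = s ^ r

theorem cover_of (A : Subalgebra ℂ K) [IsFractionRing A K] [IsIntegrallyClosed A]
    [Algebra.FiniteType ℂ A] {a : K} (a0 : a ≠ 0) {r : ℕ} (r0 : 0 < r)
    (h : ∀ p : Ideal A, p.IsPrime → p.height = 1 →
      ∃ (t : K) (b c : A), b ∉ p ∧ c ∉ p ∧ a * c = b * t ^ r)
    (L : Type) [Field L] [Algebra K L] [Algebra ℂ L] [IsScalarTower ℂ K L] [FiniteDimensional K L]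
    [IsGalois K L] {α : L} (hα : α ^ r = algebraMap K L a)
    (gen : ∀ σ : L ≃ₐ[K] L, σ α = α → σ = 1) (S : Type) [CommRing S] [Algebra A S] [Algebra ℂ S]
    [Algebra S L] [IsScalarTower A S L] [IsScalarTower ℂ A S] [IsScalarTower ℂ S L]
    [IsIntegralClosure S A L] : Cov A a r := by
  classical
  have : IsNoetherianRing A := Algebra.FiniteType.isNoetherianRing ℂ A
  have js : Function.Injective (algebraMap S L) := IsIntegralClosure.algebraMap_injective S A L
  have : IsDomain S := js.isDomain _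
  have : IsFractionRing S L := IsIntegralClosure.isFractionRing_of_finite_extension A K L S
  have : Module.Finite A S := IsIntegralClosure.finite A K L S
  have ft : Algebra.FiniteType ℂ S := .trans (S := A) inferInstance inferInstance
  have : IsNoetherianRing S := Algebra.FiniteType.isNoetherianRing ℂ S
  have tw : ∀ x : A, algebraMap S L (algebraMap A S x) = algebraMap K L x := fun x =>
    (IsScalarTower.algebraMap_apply A S L x).symm
  have : FaithfulSMul A S := (faithfulSMul_iff_algebraMap_injective _ _).2 fun x y e =>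
    Subtype.ext ((algebraMap K L).injective (by rw [← tw, ← tw, e]))
  have nor : IsIntegrallyClosed S := (isIntegrallyClosed_iff L).2 fun {x} hx =>
    (IsIntegralClosure.isIntegral_iff (A := S) (R := A)).1 (isIntegral_trans x hx)
  let e := (FractionRing.algEquiv S L).restrictScalars ℂ
  have he : ∀ s : S, e.symm (algebraMap S L s) = algebraMap S _ s := fun s =>
    (FractionRing.algEquiv S L).symm.commutes s
  clear_value e
  let ρ : (L ≃ₐ[K] L) →* (S ≃ₐ[ℂ] S) :=
    { toFun := fun σ => (galRestrict A K L S σ).restrictScalars ℂ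
      map_one' := by rw [map_one]; rfl
      map_mul' := fun σ τ => by rw [map_mul]; rfl }
  have hρ : ∀ σ (s : S), algebraMap S L (ρ σ s) = σ (algebraMap S L s) := fun σ s =>
    algebraMap_galRestrict_apply A σ s
  clear_value ρ
  have α0 : α ≠ 0 := fun k =>
    (_root_.map_ne_zero (algebraMap K L)).2 a0 (by rw [← hα, k, zero_pow r0.ne'])
  refine ⟨S, inferInstance, inferInstance, ρ.range,
    e.symm.toAlgHom.comp (IsScalarTower.toAlgHom ℂ K L), e.symm α, inferInstance, ft, nor,
    (finite_range ρ).to_subtype, ?_, fun b => ⟨?_, ?_⟩, ?_⟩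
  · rintro _ ⟨σ, rfl⟩ g1 p pp hp
    have σ1 : σ α ≠ α := fun k => g1 (by rw [gen σ k, map_one])
    obtain ⟨ζ, hζ⟩ := root_const (z := σ α / α) r0 (by
      rw [div_pow, ← map_pow, hα, σ.commutes, div_self ((_root_.map_ne_zero _).2 a0)])
    have ζ1 : ζ - 1 ≠ 0 := fun k => σ1 (by
      rw [sub_eq_zero.1 k, map_one, eq_comm, div_eq_one_iff_eq α0] at hζ
      exact hζ)
    by_contra lt
    have le : (p.under A).height ≤ 1 := by
      have := Ideal.height_eq_height_add_of_liesOver_of_hasGoingDown (p.under A) p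
      refine le_trans (this ▸ le_self_add) (Order.le_of_lt_succ ?_)
      exact not_le.1 lt
    rcases le.eq_or_lt with k | k
    · obtain ⟨t, b, c, hb, hc, k⟩ := h _ inferInstance k
      have c0 : (c : K) ≠ 0 := fun z => hc ((Subtype.ext z : c = 0) ▸ zero_mem _)
      have t0 : t ≠ 0 := fun z => mul_ne_zero a0 c0 (by rw [k, z, zero_pow r0.ne', mul_zero])
      obtain ⟨n, rfl⟩ : ∃ n, r = n + 1 := ⟨r - 1, by omega⟩
      have w : (algebraMap K L (c / t) * α) ^ (n + 1) = algebraMap A L (b * c ^ n) := by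
        rw [mul_pow, hα, ← map_pow, ← map_mul]
        refine congrArg (algebraMap K L) (?_ : _ = (b : K) * c ^ n)
        rw [div_pow, div_mul_eq_mul_div, div_eq_iff (pow_ne_zero _ t0)]
        linear_combination (c : K) ^ n * k
      obtain ⟨γ, hγ⟩ := (IsIntegralClosure.isIntegral_iff (A := S)).1
        (IsIntegral.of_pow r0 (w ▸ isIntegral_algebraMap))
      have u : ρ σ γ - γ = algebraMap ℂ S (ζ - 1) * γ := js (by
        rw [map_sub, map_mul, ← IsScalarTower.algebraMap_apply, hρ, map_sub, hζ, map_one, hγ,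
          map_mul, σ.commutes]
        field_simp)
      have m : γ ∈ p := (Ideal.unit_mul_mem_iff_mem p ((IsUnit.mk0 _ ζ1).map _)).1 (u ▸ hp γ)
      have m' : b * c ^ n ∈ p.under A := by
        change algebraMap A S _ ∈ p
        rw [show algebraMap A S (b * c ^ n) = γ ^ (n + 1) from js (by
          rw [map_pow, hγ, w, ← IsScalarTower.algebraMap_apply])]
        exact Ideal.pow_mem_of_mem p m _ r0
      rcases (Ideal.IsPrime.under A p).mem_or_mem m' with x | x
      exacts [hb x, hc ((Ideal.IsPrime.under A p).mem_of_pow_mem n x)]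
    · have z : p.under A = ⊥ := Ideal.height_eq_zero_iff_eq_bot.1 (Order.lt_one_iff.1 k)
      have z' : p = ⊥ := Ideal.eq_bot_of_comap_eq_bot z
      exact g1 (AlgEquiv.ext fun s => sub_eq_zero.1 (Ideal.mem_bot.1 (z' ▸ hp s)))
  · rintro ⟨x, hx, rfl⟩
    refine ⟨algebraMap A S ⟨x, hx⟩, ?_, (he _).symm.trans (congrArg e.symm (tw _))⟩
    rintro _ ⟨σ, rfl⟩
    exact js (by rw [hρ, tw, σ.commutes])
  · rintro ⟨s, hs, rfl⟩
    obtain ⟨x, hx⟩ := (IsGalois.mem_bot_iff_fixed (F := K) (algebraMap S L s)).2 fun σ =>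
      (hρ σ s).symm.trans (congrArg _ (hs _ ⟨σ, rfl⟩))
    have hx' : algebraMap K L x = algebraMap S L s := hx
    have i : IsIntegral A x := (isIntegral_algebraMap_iff (algebraMap K L).injective).1
      (hx' ▸ (IsIntegralClosure.isIntegral_iff (A := S)).2 ⟨s, rfl⟩)
    obtain ⟨y, rfl⟩ := IsIntegrallyClosed.isIntegral_iff.1 i
    exact ⟨y, y.2, (congrArg e.symm hx').trans (he s)⟩
  · rw [← map_pow, hα]
    rfl

theorem cover_int (A : Subalgebra ℂ K) [IsFractionRing A K] [IsIntegrallyClosed A]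
    [Algebra.FiniteType ℂ A] {a : K} (a0 : a ≠ 0) {r : ℕ} (r0 : 0 < r)
    (h : ∀ p : Ideal A, p.IsPrime → p.height = 1 →
      ∃ (t : K) (b c : A), b ∉ p ∧ c ∉ p ∧ a * c = b * t ^ r)
    (L : Type) [Field L] [Algebra K L] [Algebra ℂ L] [IsScalarTower ℂ K L] [FiniteDimensional K L]
    [IsGalois K L] {α : L} (hα : α ^ r = algebraMap K L a)
    (gen : ∀ σ : L ≃ₐ[K] L, σ α = α → σ = 1) : Cov A a r :=
  cover_of A a0 r0 h L hα gen (integralClosure A L)

theorem cover (A : Subalgebra ℂ K) [IsFractionRing A K] [IsIntegrallyClosed A]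
    [Algebra.FiniteType ℂ A] {a : K} (a0 : a ≠ 0) {r : ℕ} (r0 : 0 < r)
    (h : ∀ p : Ideal A, p.IsPrime → p.height = 1 →
      ∃ (t : K) (b c : A), b ∉ p ∧ c ∉ p ∧ a * c = b * t ^ r) : Cov A a r := by
  have : CharZero K := charZero_of_injective_algebraMap (algebraMap ℂ K).injective
  let f : K[X] := X ^ r - C a
  let L := f.SplittingField
  have : Normal K L := Normal.of_isSplittingField f
  have : IsGalois K L := {}
  have sp := SplittingField.splits f
  have f0 : f ≠ 0 := X_pow_sub_C_ne_zero r0 a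
  obtain ⟨α, hα⟩ := sp.exists_eval_eq_zero (by
    rw [degree_map, degree_X_pow_sub_C r0]
    exact_mod_cast r0.ne')
  have rt : ∀ β : L, (f.map (algebraMap K L)).eval β = 0 → β ^ r = algebraMap K L a :=
    fun β k => by simpa [f, sub_eq_zero] using k
  have α0 : α ≠ 0 := fun k =>
    (_root_.map_ne_zero (algebraMap K L)).2 a0 (by rw [← rt α hα, k, zero_pow r0.ne'])
  refine cover_int A a0 r0 h L (rt α hα) fun σ k => ?_
  refine AlgEquiv.coe_algHom_injective (AlgHom.ext_of_adjoin_eq_top
    (SplittingField.adjoin_rootSet f) fun β hβ => ?_)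
  have e : β ^ r = algebraMap K L a := rt β (by
    rw [eval_map_algebraMap]
    exact (mem_rootSet.1 hβ).2)
  obtain ⟨ζ, hζ⟩ := root_const (z := β / α) r0 (by
    rw [div_pow, e, rt α hα, div_self ((_root_.map_ne_zero _).2 a0)])
  have : β = algebraMap K L (algebraMap ℂ K ζ) * α := by
    rw [← IsScalarTower.algebraMap_apply, hζ, div_mul_cancel₀ _ α0]
  change σ β = β
  rw [this, map_mul, σ.commutes, k]

end Vale.Agent.P283R.Ix
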