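import Vale.Agent.P283R.Ix.Sch
import Vale.Agent.P283M.Br.Crv

/-!
# P283R: every crepant birational contraction is in the class `EmbSing`
-/

set_option linter.all false

open Set CategoryTheory AlgebraicGeometry

noncomputable section

namespace Vale.Agent.P283R.Ix

section

variable {K L : Type} [Field K] [Algebra ℂ K] [Field L] [Algebra ℂ L] {d : ℕ}

/-- conjugation of a derivation -/
def cj (e : K ≃ₐ[ℂ] L) (v : Derivation ℂ K K) : Derivation ℂ L L where
  toLinearMap := e.toLinearMap ∘ₗ v.toLinearMap ∘ₗ e.symm.toLinearMap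
  map_one_eq_zero' := by simp
  leibniz' a b := by simp

theorem cj_apply (e : K ≃ₐ[ℂ] L) (v : Derivation ℂ K K) (a : L) : cj e v a = e (v (e.symm a)) := rfl

theorem cj_cj (e : K ≃ₐ[ℂ] L) (v : Derivation ℂ L L) : cj e (cj e.symm v) = v :=
  Derivation.ext fun a => by simp [cj_apply]

theorem cj_update [DecidableEq (Fin d)] (e : K ≃ₐ[ℂ] L) (v : Fin d → Derivation ℂ K K) (j : Fin d)
    (x : Derivation ℂ K K) : (fun i => cj e (Function.update v j x i)) =
      Function.update (fun i => cj e (v i)) j (cj e x) :=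
  funext fun i => Function.apply_update (fun _ => cj e) v j x i

/-- transport of a form -/
def tr (e : K ≃ₐ[ℂ] L) (ω : Sl.DForm L d) : Sl.DForm K d where
  toFun v := e.symm (ω fun i => cj e (v i))
  map_update_add' v j x y := by
    rw [cj_update, cj_update, cj_update, ← map_add, ← ω.map_update_add]
    congr 3
    exact Derivation.ext fun a => by simp [cj_apply]
  map_update_smul' v j c x := by
    rw [cj_update, cj_update, show cj e (c • x) = e c • cj e x from
      Derivation.ext fun a => by simp [cj_apply], ω.map_update_smul]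
    simp
  map_eq_zero_of_eq' v i j h k := by
    change e.symm _ = 0
    rw [ω.map_eq_zero_of_eq _ (congrArg (cj e) h) k, map_zero]

theorem tr_apply (e : K ≃ₐ[ℂ] L) (ω : Sl.DForm L d) (v : Fin d → Derivation ℂ K K) :
    tr e ω v = e.symm (ω fun i => cj e (v i)) := rfl

theorem tr_cj (e : K ≃ₐ[ℂ] L) (ω : Sl.DForm L d) (v : Fin d → Derivation ℂ L L) :
    tr e ω (fun i => cj e.symm (v i)) = e.symm (ω v) := by
  rw [tr_apply]
  simp only [cj_cj]

theorem tr_ne (e : K ≃ₐ[ℂ] L) {ω : Sl.DForm L d} (h : ω.Nonzero) : (tr e ω).Nonzero :=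
  fun k => h (AlternatingMap.ext fun v => e.symm.injective (by
    rw [← tr_cj, k, AlternatingMap.zero_apply, AlternatingMap.zero_apply, map_zero]))

theorem tr_ord (e : K ≃ₐ[ℂ] L) (ω : Sl.DForm L d) {O : K → Prop} {o : K → ℤ} {O' : L → Prop}
    {o' : L → ℤ} (hO : ∀ g, O' g ↔ O (e.symm g)) (ho : ∀ g, o' g = o (e.symm g)) :
    (tr e ω).ord O o = ω.ord O' o' := congrArg sInf (Set.ext fun m =>
  ⟨fun ⟨v, a, b, c⟩ => ⟨fun i => cj e (v i), fun i g k => (hO _).2 (by
      rw [cj_apply, e.symm_apply_apply]; exact a i _ ((hO g).1 k)),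
      fun k => b (by rw [tr_apply, k, map_zero]), (ho _).trans c⟩,
    fun ⟨v, a, b, c⟩ => ⟨fun i => cj e.symm (v i), fun i g k => (hO _).1 (a i (e g) ((hO _).2 (by
      rwa [e.symm_apply_apply]))), by
        rw [tr_cj]; exact (map_ne_zero _).2 b, by rw [tr_cj, ← ho, c]⟩⟩)

end

open Vale.Agent.P289 Vale.Agent.P289.H219 Vale.Agent.P270L Vale.Agent.P283M.Am Vale.Agent.P299.G
open Vale.Agent.P287D Vale.Agent.P283M Vale.Agent.P283M.Br Vale.Agent.P283M.Stm.Var
open Vale.Agent.P297Z Vale.Agent.P283R.Br Vale.Agent.P283R.Et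
open Vale.Agent.P283M.Stm (Contraction)

variable {X Z : Stm.Var} {f : X.X ⟶ Z.X} {p : Z.K ≃+* X.K} {y : Z.PrimeDiv} {P : Pl X.K}

/-- a prime divisor over `y` has the same local ring -/
theorem is_over (hp : Pb f p) (h : Is p.symm y P) {E : X.PrimeDiv} (e : E.1.map f = y.1) :
    Is (RingEquiv.refl X.K) E P := by
  obtain ⟨Q, a, -⟩ := pl_of plc E
  obtain rfl : P = Q := Pl.ext' (congrArg _ (Pl.eq_of_le' (v := P.toPlace) (w := Q.toPlace)
    fun g hg => (a g).2 (p.apply_symm_apply g ▸ hp.reg (e ▸ (h g).1 hg))))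
  exact a

theorem over_uniq (hp : Pb f p) (h : Is p.symm y P) {E E' : X.PrimeDiv} (e : E.1.map f = y.1)
    (e' : E'.1.map f = y.1) : E = E' :=
  Subtype.ext (Crv.dom_unique (dom_S (is_over hp h e).dom) (dom_S (is_over hp h e').dom))

/-- there is a prime divisor over `y` -/
theorem exists_over (hf : Contraction f) (hp : Pb f p) {V : Z.X.Opens} (hV : IsAffineOpen V)
    {z : Pt Z.X} (zV : z ∈ V) (hz : IsClosed ({z} : Set (Pt Z.X))) (h : Is p.symm y P)
    (hy : y.1 ∈ V) : ∃ E : X.PrimeDiv, E.1.map f = y.1 := by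
  obtain ⟨A, χ, bs⟩ := exists_bs hf hp hV zV hz
  obtain ⟨x, hx, dm⟩ := bs.ctr P fun a ha =>
    (h a).2 ((bs.memZ _).1 (by rwa [p.apply_symm_apply]) _ hy)
  have m : ∀ g, g ∈ P.ring.comap p.toRingHom ↔ RegAt g y.1 := fun g =>
    (h (p g)).trans (by rw [p.symm_apply_apply])
  have e : Pt.map f x = y.1 := Crv.dom_unique (W := P.ring.comap p.toRingHom)
    (dom_S (X := Z) fun g hg => ⟨(dm _ (hp.reg hg)).1, fun g0 k => hp.un hg ⟨(map_ne_zero p).2 g0,
      hp.reg hg, (dm _ (hp.reg hg)).2 ((map_ne_zero p).2 g0) (map_inv₀ p g ▸ k)⟩⟩)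
    (dom_S (X := Z) fun g hg => ⟨(m g).2 hg, fun _ k => (m _).1 k⟩)
  exact ⟨⟨x, codim_of dm fun g hg => p.apply_symm_apply g ▸ hp.reg (e ▸ (h g).1 hg)⟩, e⟩

end Vale.Agent.P283R.Ix

namespace Vale.Agent.P283R.Sl

open Var P283M.Br

/-- **universality**: the class `EmbSing` exhausts the crepant birational contractions -/
theorem emb_all {d q : ℕ} {X Z : Var} {f : X.X ⟶ Z.X} {ω : X.Form d} {B : X.QDiv} {z : Pt Z.X}
    (hd : 1 ≤ d) (hdim : dimension X.str = d) (hω : ω.Nonzero) (hf : Contraction f)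
    (hz : z.Closed) (hc : Crepant f ω B z) (hB : ∀ y, ∃ k : ℤ, q * B.coeff y = k) :
    ∃ N D, SameCoeff f B.coeff D ∧ EmbSing d N q Z z D := by
  classical
  obtain ⟨⟨p, hp⟩, m, g, m0, hg⟩ := hc
  obtain ⟨n, rfl⟩ : ∃ n, d = n + 1 := ⟨d - 1, by omega⟩
  have hp' : Br.Pb (X := X.o) (Z := Z.o) f p := hp
  have cs := hp'.cst hf.1
  let e : Z.K ≃ₐ[ℂ] X.K := { p with commutes' := cs }
  have hK := ffd X.o _ hdim
  obtain ⟨h, h0, fr⟩ := frm X.o _ hK ω hω
  have pl := fun y => plc X.o Z.o p.symm (fun c => p.symm_apply_eq.2 (cs c).symm) y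
  choose P hP using fun y => (pl y).1
  have un : ∀ {E E' : X.PrimeDiv} {y : Z.PrimeDiv}, E.1.map f = y.1 → E'.1.map f = y.1 → E = E' :=
    fun {E E' y} a b => Ix.over_uniq hp' (hP y) a b
  let D : Z.PrimeDiv → ℚ := fun y =>
    if k : ∃ E : X.PrimeDiv, E.1.map f = y.1 then B.coeff k.choose else 0
  have hD : SameCoeff f B.coeff D := fun E y a => by
    have k : ∃ E : X.PrimeDiv, E.1.map f = y.1 := ⟨E, a⟩
    rw [un a k.choose_spec]
    exact (show D y = _ from dif_pos k).symm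
  have := hf.2.1
  let U' : Z.X.Opens := ⟨(f '' {x : X.X | LocalEq (logCan ω B) m g x}ᶜ)ᶜ,
    (f.isClosedMap _ (Br.open_localEq (X := X.o) hK fr B m g).isClosed_compl).isOpen_compl⟩
  obtain ⟨_, ⟨V, hV, rfl⟩, zV, UV⟩ := Z.X.isBasis_affineOpens.exists_subset_of_mem_open
    (show z ∈ U' from fun ⟨x, a, b⟩ => a (hg x b)) U'.isOpen
  obtain ⟨x₀, hx₀⟩ := hf.2.2.1.surj z
  have hdZ : dimension Z.str = (n + 1 : ℕ) := e.trdeg_eq.trans hdim
  obtain ⟨N, hN⟩ := emb_of (q := q) (η := Ix.tr e ω) (D := D) (g := p.symm g) hdZ (Ix.tr_ne e hω)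
    hz zV m0 (fun x hx => ⟨(map_ne_zero _).2 (hg x₀ hx₀).1, fun y s => by
      have yV : y.1 ∈ V := s.mem_open V.isOpen hx
      obtain ⟨E, a⟩ := Ix.exists_over (X := X.o) (Z := Z.o) hf hp' hV zV hz (hP y) yV
      have i := Ix.is_over hp' (hP y) a
      have o : ∀ g, ord g E = ord (p.symm g) y := fun g =>
        ((plc X.o X.o (RingEquiv.refl _) (fun _ => rfl) E).2 _ i g).trans
          ((pl y).2 _ (hP y) g).symm
      have l : LocalEq (logCan ω B) m g E.1 := by_contra fun k => UV yV ⟨E.1, k, a⟩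
      have t : formOrd (Ix.tr e ω) (RingEquiv.refl Z.K) y = formOrd ω (RingEquiv.refl X.K) E :=
        Ix.tr_ord e ω (fun g => (i g).symm.trans (hP y g)) o
      rw [← o, l.2 E specializes_rfl, Pi.add_apply, ← hD E y a]
      unfold logCan
      rw [t]
      exact congrArg _ (congrArg (· + _) (add_zero _).symm)⟩)
    fun y yV => let ⟨E, a⟩ := Ix.exists_over (X := X.o) (Z := Z.o) hf hp' hV zV hz (hP y) yV; hD E y a ▸ hB E
  exact ⟨N, D, hD, hN⟩

/-- the same for coefficients in a finite set -/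
theorem emb_fin (d : ℕ) (hd : 1 ≤ d) (R : Finset ℚ) : ∃ q : ℕ, 1 ≤ q ∧ ∀ (X Z : Var)
    (f : X.X ⟶ Z.X) (ω : X.Form d) (B : X.QDiv) (z : Pt Z.X), dimension X.str = d → ω.Nonzero →
    (∀ y, B.coeff y ≠ 0 → B.coeff y ∈ R) → Contraction f → z.Closed → Crepant f ω B z →
    ∃ N D, SameCoeff f B.coeff D ∧ EmbSing d N q Z z D := by
  refine ⟨∏ a ∈ R, a.den, Finset.prod_pos (s := R) fun a _ => Rat.den_pos a,
    fun X Z f ω B z a b c e s t => emb_all hd a b e s t fun y => ?_⟩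
  by_cases k : B.coeff y = 0
  · exact ⟨0, by rw [k, mul_zero, Int.cast_zero]⟩
  obtain ⟨j, hj⟩ := Finset.dvd_prod_of_mem (fun a : ℚ => a.den) (c y k)
  exact ⟨j * (B.coeff y).num, by
    rw [hj]
    push_cast
    rw [mul_right_comm, mul_comm, Rat.den_mul_eq_num]⟩

end Vale.Agent.P283R.Sl
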