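import Vale.Agent.P283R.Ix.Alg
import Vale.Agent.P283R.Et.Br
import Vale.Agent.P283R.Tp.Hrt
import Vale.Agent.P283R.Sl.Br
import Vale.Agent.P283R.Sl.Em

/-!
# P283R: every germ has an index one cover
-/

set_option linter.all false

open Set CategoryTheory AlgebraicGeometry
open Vale.Agent.P289 Vale.Agent.P289.H219 Vale.Agent.P270L Vale.Agent.P283M.Am Vale.Agent.P299.G

noncomputable section

namespace Vale.Agent.P283R.Ix

open Vale.Agent.P287D Vale.Agent.P283M Vale.Agent.P283M.Br Vale.Agent.P283M.Stm.Var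
open Vale.Agent.P297Z Vale.Agent.P283R.Br Vale.Agent.P283R.Et

/-- the tangent spaces of an affine variety have a bounded dimension -/
theorem embdim (S : Type) [CommRing S] [Algebra ℂ S] [Algebra.FiniteType ℂ S] :
    ∃ N : ℕ, ∀ m : Ideal S, m.IsMaximal →
      ∃ z : Fin N → S, m = Ideal.span (range z) ⊔ m ^ 2 := by
  obtain ⟨N, φ, hφ⟩ := Algebra.FiniteType.iff_quotient_mvPolynomial''.1
    (inferInstance : Algebra.FiniteType ℂ S)
  refine ⟨N, fun m hm => ?_⟩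
  choose c hc using fun j => res_surj m hm (Ideal.Quotient.mk m (φ (MvPolynomial.X j)))
  let z : Fin N → S := fun j => φ (MvPolynomial.X j) - algebraMap ℂ S (c j)
  have zm : Ideal.span (range z) ≤ m := Ideal.span_le.2 (by
    rintro _ ⟨j, rfl⟩
    exact Ideal.Quotient.eq.1 (hc j).symm)
  have k : ∀ p, φ p - algebraMap ℂ S (MvPolynomial.eval c p) ∈ Ideal.span (range z) := fun p => by
    induction p using MvPolynomial.induction_on with
    | C a => rw [MvPolynomial.eval_C, MvPolynomial.algHom_C, sub_self]; exact zero_mem _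
    | add p q hp hq =>
      rw [map_add, map_add, map_add, add_sub_add_comm]
      exact add_mem hp hq
    | mul_X p j hp =>
      rw [map_mul, map_mul, map_mul, MvPolynomial.eval_X,
        show ∀ a b c e : S, a * b - c * e = (a - c) * b + c * (b - e) from fun _ _ _ _ => by ring]
      exact add_mem (Ideal.mul_mem_right _ _ hp) (Ideal.mul_mem_left _ _ (Ideal.subset_span ⟨j, rfl⟩))
  refine ⟨z, le_antisymm (fun s hs => Ideal.mem_sup_left ?_)
    (sup_le zm (Ideal.pow_le_self two_ne_zero))⟩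
  obtain ⟨p, rfl⟩ := hφ s
  have e : MvPolynomial.eval c p = 0 := by_contra fun e => hm.ne_top
    (m.eq_top_of_isUnit_mem (by simpa using sub_mem hs (zm (k p))) ((Ne.isUnit e).map (algebraMap ℂ S)))
  simpa [e] using k p

/-- the cover of an affine chart on which `div g` is divisible by `r` -/
theorem chart {d r : ℕ} {X : Stm.Var} (hK : FF X.K d) {U : X.X.Opens} (hU : IsAffineOpen U)
    {z : Pt X.X} (zU : z ∈ U) (hz : IsClosed ({z} : Set (Pt X.X))) {g : X.K} (g0 : g ≠ 0)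
    (r0 : 0 < r) (h : ∀ E : X.PrimeDiv, E.1 ∈ U → (r : ℤ) ∣ ord g E) :
    ∃ (N : ℕ) (S : Type) (_ : CommRing S) (_ : Algebra ℂ S) (G : Subgroup (S ≃ₐ[ℂ] S))
      (i : X.K →ₐ[ℂ] FractionRing S) (s : FractionRing S),
      Sl.IsCover N {a : X.K | ∀ x ∈ U, RegAt a x} G i ∧ i g = s ^ r := by
  obtain ⟨A, χ, bs⟩ := exists_bs ctr_id pb_id hU zU hz
  have fr := bs_fr bs hU zU
  have := bs_nor bs hU zU
  have := IsFractionRing.of_field A X.K fr
  have : Algebra.FiniteType ℂ A := (Subalgebra.fg_iff_finiteType A).1 bs.fg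
  obtain ⟨S, _, _, G, i, s, h1, h2, h3, h4, h5, h6, h7⟩ := cover A g0 r0 fun p pp hp => by
    obtain ⟨R, c, lo⟩ := (hrt d _ A ⟨hK, bs.fg, fr⟩ inferInstance).2.2.2 p pp hp
    obtain ⟨x, hx, dm⟩ := bs.ctr R fun a ha => (c ⟨a, ha⟩).1
    have cd := bs.codim hx dm fun a ha =>
      let ⟨s, t, ht, e⟩ := lo a ha
      ⟨s, s.2, t, t.2, mt (c t).2.2 ht, e⟩
    obtain ⟨Q, e, o⟩ := pl_of plc (X := X) ⟨x, cd⟩
    obtain rfl := pl_eq e dm
    obtain ⟨k, hk⟩ := h ⟨x, cd⟩ hx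
    rw [o] at hk
    have t0 : (Q.t ^ k) ^ r ≠ 0 := pow_ne_zero _ (zpow_ne_zero _ (Bm.ord_t Q).1)
    have v : Q.ord (g / (Q.t ^ k) ^ r) = 0 := by
      rw [Pl.ord_div _ g0 t0, Pl.ord_pow, Pl.ord_zpow, (Bm.ord_t Q).2, hk, mul_one, sub_self]
    have w0 := div_ne_zero g0 t0
    obtain ⟨b, c', hc, e'⟩ := lo _ ((Pl.ord_nonneg_iff _ w0).1 v.ge)
    have c0 : (c' : X.K) ≠ 0 := fun k => hc (by rw [show c' = 0 from Subtype.ext k]; exact zero_mem _)
    have b0 : (b : X.K) ≠ 0 := fun k => w0 (by rw [e', k, zero_div])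
    refine ⟨Q.t ^ k, b, c', fun hb => ?_, hc, (div_eq_div_iff t0 c0).1 e'⟩
    have o1 := ((Bm.rd_zero_iff Q (c b).1).1 ((c b).2.1 hb)).resolve_left b0
    have o2 := mt (fun k => (c c').2.2 ((Bm.rd_zero_iff Q (c c').1).2 (.inr k))) hc
    rw [e', Pl.ord_div _ b0 c0] at v
    omega
  obtain ⟨N, hN⟩ := embdim S
  exact ⟨N, S, _, _, G, i, s, ⟨h1, h2, h3, hN, h4, h5, fun b => Iff.trans
    (exists_congr fun a => and_congr_left' (bs.mem a).symm) (h6 b)⟩, h7⟩

end Vale.Agent.P283R.Ix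

namespace Vale.Agent.P283R.Sl

open Var

variable {d q : ℕ} {Z : Var} {η : Z.Form d} {z : Pt Z.X}

/-- the index one cover -/
theorem emb_of {D : Z.PrimeDiv → ℚ} {V : Z.X.Opens} {m : ℕ} {g : Z.K} (hdim : dimension Z.str = d)
    (η0 : η.Nonzero) (hz : z.Closed) (zV : z.In V) (m0 : 0 < m)
    (hg : ∀ x : Pt Z.X, x.In V → LocalEq (logCan η 0 + D) m g x)
    (hD : ∀ y : Z.PrimeDiv, y.1.In V → ∃ k : ℤ, q * D y = k) : ∃ N, EmbSing d N q Z z D := by
  obtain ⟨_, ⟨U, hU, rfl⟩, zU, UV⟩ :=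
    Z.X.isBasis_affineOpens.exists_subset_of_mem_open zV V.isOpen
  obtain ⟨N, S, _, _, G, i, s, l, e⟩ := Ix.chart (X := Z.o) (P283M.Br.ffd Z.o d hdim) hU zU hz
    (pow_ne_zero q (hg z zV).1) m0 fun E hE => by
      obtain ⟨k, hk⟩ := hD E (UV hE)
      obtain ⟨P, -, o⟩ := P283M.Br.pl_of P283M.Br.plc (X := Z.o) E
      have a : ((P.ord g : ℤ) : ℚ) = m * ((formOrd η (RingEquiv.refl Z.K) E : ℚ) + 0 + D E) :=
        o g ▸ (hg _ (UV hE)).2 E specializes_rfl
      refine ⟨q * formOrd η (RingEquiv.refl Z.K) E + k, ?_⟩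
      rw [o, P297Z.Pl.ord_pow, ← Int.cast_inj (α := ℚ)]
      push_cast
      rw [a, ← hk]
      ring
  exact ⟨N, Z, 𝟙 _, z, D, η, U, m, g, S, _, _, ⟨inferInstance, Category.id_comp _, rfl, hz⟩,
    fun E y h => congrArg D (Subtype.ext h), η0, hU, zU, m0, hg z zV, G, i, l, s, 1,
    ((map_pow i g q).symm.trans e).trans (by rw [Units.val_one, map_one, one_mul])⟩

end Vale.Agent.P283R.Sl
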